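import Vale.Agent.P366.H353.S.Int
import Vale.Agent.P366.H896.G.Div
import Vale.Agent.P366.Kerr.DefsG

/-! The flux density at an interior point, for data with the metric of a Kerr-Schild
hypersurface and an arbitrary second fundamental form. -/

open MeasureTheory Metric Filter Topology Set
open scoped ContDiff ENNReal

noncomputable section
namespace Vale.Agent.P366.SH

open Vale.Agent.P366 (pd E)
open Vale.Agent.P366.H353.N
open Vale.Agent.P366.Kerr (NullCone pt sgn ksL ein IsKS IsSliceL indG indK tng con lapse dif difM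
  alpha beta lieG inn)
open Vale.Agent.P366.KSL
open Vale.Agent.P366.KSD (dens_eq)
open Vale.Agent.P366.GC
open Vale.Agent.P366.H896 (CR)

/-! ### the statement -/

variable {n : ℕ} {C : NullCone n} {l : Fin (n + 1) → E (n + 1) → ℝ} {V : E (n + 1) → ℝ}
  {f : E n → ℝ} {D₀ D : Stmt.Exterior n} {y : E n} {ξ : Fin (n + 1) → ℝ}

theorem int_eqG (hS : IsSliceL C l V f D₀) (hg : ∀ y, 0 ≤ D₀.F y → V (pt (f y) y) ≠ 0 →
      ∃ κ : ℝ, ∀ a, acc l a (pt (f y) y) = κ * l a (pt (f y) y))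
    (hm : D₀.g = D.g) (hy : ∀ᶠ z in 𝓝 y, 0 ≤ D₀.F z) (ξ : Fin (n + 1) → ℝ) :
    -∑ b, ξ b * ∑ i, pd i (Zf l V f b i) y +
      ∑ i, Stmt.pd i (Bk (ksL l V) f (difM D₀ D) ξ i) y =
    (lapse (ksL l V) f y)⁻¹ * (dens (ksL l V) f D.K ξ y +
      (alpha (ksL l V) f ξ y *
          (Stmt.normSq D.g (dif D₀ D) y - Stmt.tr D.g (dif D₀ D) y ^ 2) +
        inn D.g (difM D₀ D) (lieG (ksL l V) f ξ) y) / 2) := by
  have hmd : difM D₀ D = Stmt.momT D.g (dif D₀ D) := rfl
  rw [hmd]
  have hy0 := hy.self_of_nhds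
  obtain ⟨U, W₁, hyW₁, hSl₁⟩ := sl_near hS hy
  set W : Set (E n) := W₁ ∩ interior {z | 0 ≤ D₀.F z} with hW
  have hWo : IsOpen W := hSl₁.opW.inter isOpen_interior
  have hSl : Sl (ksL l V) f U W := sl_mono hSl₁ hWo inter_subset_left
  have hyW : y ∈ W := ⟨hyW₁, mem_interior_iff_mem_nhds.2 hy⟩
  have hgz : ∀ z, 0 ≤ D₀.F z → D.g z = indG (ksL l V) f z := by
    intro z hz
    rw [← hm]
    funext i j
    exact hS.met z hz i j
  -- properties of `k`
  have hk : ∀ i j, CR 1 W fun y => dif D₀ D y i j := by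
    intro i j z _
    have h1 : ContDiff ℝ ∞ fun y => dif D₀ D y i j :=
      ((D.smooth i j).2).sub ((D₀.smooth i j).2)
    exact (h1.contDiffAt).of_le (KSL.nat_le 1)
  have hks : ∀ y ∈ W, ∀ i j, dif D₀ D y i j = dif D₀ D y j i := by
    intro z _ i j
    unfold dif
    rw [(D.symm z i j).2, (D₀.symm z i j).2]
  have hup : ∀ z, 0 ≤ D₀.F z → ∀ i j, Stmt.up D.g i j z = Stmt.up (indG (ksL l V) f) i j z := by
    intro z hz i j
    unfold Stmt.up Stmt.mat
    rw [hgz z hz]
  have htr : ∀ z, 0 ≤ D₀.F z →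
      Stmt.tr (indG (ksL l V) f) (dif D₀ D) z = Stmt.tr D.g (dif D₀ D) z := by
    intro z hz
    unfold Stmt.tr
    simp only [hup z hz]
  have hmT : ∀ z, 0 ≤ D₀.F z → Stmt.momT D.g (dif D₀ D) z =
      Stmt.momT (indG (ksL l V) f) (dif D₀ D) z := by
    intro z hz
    funext i j
    show dif D₀ D z i j - Stmt.tr D.g (dif D₀ D) z * D.g z i j =
      dif D₀ D z i j - Stmt.tr (indG (ksL l V) f) (dif D₀ D) z * indG (ksL l V) f z i j
    rw [htr z hz, hgz z hz]
  have hdet : ∀ b, ∑ a, Stmt.chr (ksL l V) a b a (pt (f y) y) = 0 := ks_hdet (hS.ks y hy0)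
  have hmain := shear_divG hSl hdet hk hks ξ hyW
  -- the correction for `D.g` instead of the induced metric
  have hBg : ∀ i, Stmt.pd i (Bk (ksL l V) f (Stmt.momT D.g (dif D₀ D)) ξ i) y =
      Stmt.pd i (Bk (ksL l V) f (Stmt.momT (indG (ksL l V) f) (dif D₀ D)) ξ i) y := by
    intro i
    refine (pd_germ ?_ i).eq_of_nhds
    filter_upwards [hy] with z hz
    unfold Bk kb
    rw [hmT z hz]
  -- the Einstein tensor
  have hN : ∀ a, Nv (ksL l V) f a y = lapse (ksL l V) f y * (-Nn l V f y a) := by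
    intro a
    unfold Nv Nn
    have h2 : ∑ b, Stmt.up (ksL l V) a b (pt (f y) y) * con f y b =
        ∑ b, con f y b * Stmt.up (ksL l V) b a (pt (f y) y) := by
      refine Finset.sum_congr rfl fun b _ => ?_
      rw [hSl.met.up_symm (hSl.map y hyW) a b]
      ring
    rw [h2]
    ring
  have hlap := GC.lapse_pos hSl hyW
  have hein : -∑ b, ξ b * ∑ i, pd i (Zf l V f b i) y =
      (lapse (ksL l V) f y)⁻¹ * dens (ksL l V) f (indK (ksL l V) f) ξ y := by
    rw [dens_eq hS hg hy ξ, dens_ein hSl hyW ξ]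
    simp only [hN, Finset.mul_sum]
    refine Finset.sum_congr rfl fun a _ => Finset.sum_congr rfl fun b _ => ?_
    field_simp
  -- germs
  have hK : add (indK (ksL l V) f) (dif D₀ D) =ᶠ[𝓝 y] D.K := by
    filter_upwards [hy] with z hz
    funext i j
    unfold add dif
    rw [hS.sff z hz i j]
    ring
  have hdens : dens (ksL l V) f (add (indK (ksL l V) f) (dif D₀ D)) ξ y =
      dens (ksL l V) f D.K ξ y := by
    unfold dens
    rw [mu_germ (EventuallyEq.refl _ _) hK]
    congr 1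
    refine Finset.sum_congr rfl fun j _ => Finset.sum_congr rfl fun i _ => ?_
    rw [mom_germ (EventuallyEq.refl _ _) hK j]
  have hns : Stmt.normSq (indG (ksL l V) f) (dif D₀ D) y = Stmt.normSq D.g (dif D₀ D) y := by
    unfold Stmt.normSq
    simp only [hup y hy0]
  have hin : dot2 (indG (ksL l V) f) (Stmt.momT (indG (ksL l V) f) (dif D₀ D))
      (lie (ksL l V) f ξ) y =
      inn D.g (Stmt.momT D.g (dif D₀ D)) (lieG (ksL l V) f ξ) y := by
    rw [inn_eq, lieG_eq]
    unfold dot2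
    simp only [hup y hy0, hmT y hy0]
  simp only [hBg]
  rw [hein, hmain, hdens, hns, hin, htr y hy0, ← alpha_eq' hSl hyW ξ]
  ring

end Vale.Agent.P366.SH
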